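import Vale.Agent.P011.D4T.Defs2
import Vale.Agent.P011.D4T.H657.Zx

/-!
The basic properties of the model: `J`, the quaternion algebra `Q₁`, the elements `z(x₀, x; s)`.
-/

open Vale.Agent.P011.MPQ Vale.Agent.P011.D4 Vale.Agent.P011.D4.Oct Vale.Agent.P011.D4.H24

set_option linter.unusedSectionVars false

namespace Vale.Agent.P011.D4T

section model

variable {k L E : Type} [Field k] [Field L] [Field E] [Algebra k L] [Algebra k E] [Algebra L E]
  [IsScalarTower k L E] {ρ σ : E ≃ₐ[k] E} {ρL : L ≃ₐ[k] L} {α : E}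
  {a b c : kˣ} {q : Lˣ}

theorem Hy.hj (H : Hy ρ σ ρL α a b c q) : HJ a ρ σ α (algebraMap L E (q : L))
    (ρ (algebraMap L E (q : L))) (ρ (ρ (algebraMap L E (q : L)))) where
  al := H.α2
  ra := H.ρα
  sa := H.σα
  r0 := rfl
  r1 := rfl
  r2 := H.ρ3 _
  s0 := H.σL _
  N := by
    rw [H.ρL', H.ρL', ← map_mul, ← map_mul, H.hq, map_one]
  rs x := (H.comm x).symm
  r3 := H.ρ3
  s2 := H.σ2

theorem Jm_Jq (x : OctL E a b c) : Jm ρ σ α q x =
    Jq σ α (algebraMap L E (q : L)) (ρ (algebraMap L E (q : L))) x := rfl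

theorem rr_eq : rr ρ q = algebraMap L E (q : L) * algebraMap L E (q : L) *
    ρ (algebraMap L E (q : L)) := by
  rw [rr, mul_assoc]

variable [NeZero (2 : E)] (H : Hy ρ σ ρL α a b c q)

include H

theorem Jm_add (x y : OctL E a b c) : Jm ρ σ α q (x + y) = Jm ρ σ α q x + Jm ρ σ α q y :=
  Jq_add _ _ x y

theorem Jm_smul (t : E) (x : OctL E a b c) : Jm ρ σ α q (t • x) = σ t • Jm ρ σ α q x :=
  Jq_smul _ _ t x

theorem Jm_tri (x y : OctL E a b c) :
    Jm ρ σ α q (tri ρ x y) = rr ρ q • tri ρ (Jm ρ σ α q x) (Jm ρ σ α q y) := by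
  rw [rr_eq]
  exact H.hj.Jq_tri x y

theorem Jm_Jm (x : OctL E a b c) : Jm ρ σ α q (Jm ρ σ α q x) = rr ρ q • x := by
  have h := H.hj
  rw [rr_eq]
  set q0 := algebraMap L E (q : L) with hq0
  set q1 := ρ q0 with hq1
  have e1 : mq a b α q0 * qmap σ (mq a b α q0) = q0 • 1 := by
    rw [qmap_mq' h.sa, h.s0, mq_star h.al]
  have e2 : qmap σ (mq a b α (q0 * q1)) * mq a b α (q0 * q1) = (q0 * q1) • 1 := by
    rw [qmap_mq' h.sa, map_mul, h.s0, h.s1, star_mq_mul h.al]
  have e3 : qmap σ (mq a b α q0 * star (mq a b α (q0 * q1))) *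
      (mq a b α q0 * star (mq a b α (q0 * q1))) = (q0 * q0 * q1) • 1 := by
    rw [h.m0, qmap_mk4' h.sa, map_zero, map_mul, h.s0, h.s1, diag_mul h.al, ← diag_one (α := α)]
    congr 1
    · ring
    · ring
  rw [Jm_Jq, Jm_Jq]
  apply Oct.ext
  · rw [fst_Jq, fst_Jq, qmap_mul, qmap_mul, h.qinv, fst_smul]
    rw [show mq a b α q0 * (qmap σ (mq a b α q0) * x.fst * qmap σ (mq a b α (q0 * q1))) *
      mq a b α (q0 * q1) = (mq a b α q0 * qmap σ (mq a b α q0)) * x.fst *
        (qmap σ (mq a b α (q0 * q1)) * mq a b α (q0 * q1)) by simp only [mul_assoc], e1, e2,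
      smul_mul_assoc, one_mul, mul_smul_comm, mul_one, smul_smul]
    congr 1
    ring
  · rw [snd_Jq, snd_Jq, qmap_mul, h.qinv, snd_smul, mul_assoc, e3, mul_smul_comm, mul_one]

theorem norm_Jm (x : OctL E a b c) : norm (Jm ρ σ α q x) = rr ρ q * σ (norm x) := by
  have h := H.hj
  have hc : σ ((up E c : Eˣ) : E) = ((up E c : Eˣ) : E) := σ.commutes _
  rw [rr_eq, Jm_Jq]
  unfold Oct.norm
  rw [fst_Jq, snd_Jq, nrd_mul_q, nrd_mul_q, nrd_mul_q, nrd_mul_q, nrd_star_q, nrd_mq h.al,
    nrd_mq h.al, nrd_qmap, nrd_qmap, map_sub, map_mul, hc]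
  ring

theorem bil_Jm (x y : OctL E a b c) :
    bil (Jm ρ σ α q x) (Jm ρ σ α q y) = rr ρ q * σ (bil x y) := by
  unfold Oct.bil
  rw [← Jm_add H, norm_Jm H, norm_Jm H, norm_Jm H, map_sub, map_sub]
  ring

/-! ### The quaternion algebra `Q₁` -/

theorem psiL_eq (x : Qt (up L a) (q * up L b)) : (psiL α q x : Qt (up E a) (up E b)) =
    mk4 (up E a) (up E b) α (algebraMap L E x.re + algebraMap L E x.imI * α)
      (algebraMap L E x.re - algebraMap L E x.imI * α)
      (algebraMap L E (q : L) * (algebraMap L E x.imJ + algebraMap L E x.imK * α))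
      (algebraMap L E x.imJ - algebraMap L E x.imK * α) := by
  have h0 := al_ne (a := up E a) H.α2
  have h2 : (2 : E) ≠ 0 := NeZero.ne _
  ext
  · simp only [psiL, mk4]
    field_simp
    ring
  · simp only [psiL, mk4]
    field_simp
    ring
  · rfl
  · rfl

theorem psiL_mul (x y : Qt (up L a) (q * up L b)) :
    (psiL α q (x * y) : Qt (up E a) (up E b)) = psiL α q x * psiL α q y := by
  have hα := H.α2
  have ha : algebraMap L E (algebraMap k L (a : k)) = α * α := by
    rw [hα, ← IsScalarTower.algebraMap_apply]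
  have hb : algebraMap L E (algebraMap k L (b : k)) = algebraMap k E (b : k) := by
    rw [← IsScalarTower.algebraMap_apply]
  rw [psiL_eq H, psiL_eq H, psiL_eq H, mk4_mul hα]
  have e1 : ((up L a : Lˣ) : L) = algebraMap k L (a : k) := rfl
  have e2 : ((q * up L b : Lˣ) : L) = (q : L) * algebraMap k L (b : k) := rfl
  have e3 : ((up E b : Eˣ) : E) = algebraMap k E (b : k) := rfl
  congr 1
  all_goals
    simp only [QuaternionAlgebra.re_mul, QuaternionAlgebra.imI_mul, QuaternionAlgebra.imJ_mul,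
      QuaternionAlgebra.imK_mul, map_add, map_sub, map_mul, map_zero, e1, e2, e3, ha, hb]
    ring

theorem nrd_psiL (x : Qt (up L a) (q * up L b)) :
    nrd (psiL α q x : Qt (up E a) (up E b)) = algebraMap L E (nrd x) := by
  have hα := H.α2
  have ha : algebraMap L E (algebraMap k L (a : k)) = α * α := by
    rw [hα, ← IsScalarTower.algebraMap_apply]
  have hb : algebraMap L E (algebraMap k L (b : k)) = algebraMap k E (b : k) := by
    rw [← IsScalarTower.algebraMap_apply]
  have e1 : ((up L a : Lˣ) : L) = algebraMap k L (a : k) := rfl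
  have e2 : ((q * up L b : Lˣ) : L) = (q : L) * algebraMap k L (b : k) := rfl
  have e3 : ((up E b : Eˣ) : E) = algebraMap k E (b : k) := rfl
  rw [psiL_eq H, nrd_mk4 hα]
  simp only [nrd, map_add, map_sub, map_mul, map_pow, e1, e2, e3, ha, hb]
  ring

/-- The elements fixed by `σ`. -/
theorem exists_L {e : E} (he : σ e = e) : ∃ t : L, algebraMap L E t = e := by
  have h0 := al_ne (a := up E a) H.α2
  have h2 : (2 : E) ≠ 0 := NeZero.ne _
  have hli : LinearIndependent L ![(1 : E), α] := by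
    rw [LinearIndependent.pair_iff]
    intro s t hst
    have h1 : algebraMap L E s + algebraMap L E t * α = 0 := by
      rw [← hst, Algebra.smul_def, Algebra.smul_def, mul_one]
    have h3 := congrArg σ h1
    rw [map_add, map_mul, H.σL, H.σL, H.σα, map_zero] at h3
    have h4 : 2 * (algebraMap L E t * α) = 0 := by linear_combination h1 - h3
    have h5 : algebraMap L E t = 0 := by
      rcases mul_eq_zero.1 h4 with h | h
      · exact absurd h h2
      · exact (mul_eq_zero.1 h).resolve_right h0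
    have h6 : algebraMap L E s = 0 := by rw [← h1, h5]; ring
    exact ⟨(map_eq_zero _).1 h6, (map_eq_zero _).1 h5⟩
  have hc : Fintype.card (Fin 2) = Module.finrank L E := by rw [H.h2]; rfl
  have hsp := hli.span_eq_top_of_card_eq_finrank hc
  have hmem : e ∈ Submodule.span L (Set.range ![(1 : E), α]) := by rw [hsp]; trivial
  rw [Matrix.range_cons, Matrix.range_cons, Matrix.range_empty, Set.union_empty,
    Set.singleton_union, Submodule.mem_span_pair] at hmem
  obtain ⟨s, t, hst⟩ := hmem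
  have h1 : e = algebraMap L E s + algebraMap L E t * α := by
    rw [← hst, Algebra.smul_def, Algebra.smul_def, mul_one]
  have h3 : σ e = algebraMap L E s - algebraMap L E t * α := by
    rw [h1, map_add, map_mul, H.σL, H.σL, H.σα]
    ring
  have h4 : 2 * (algebraMap L E t * α) = 0 := by
    rw [he, h1] at h3
    linear_combination h3
  have h5 : algebraMap L E t * α = 0 := (mul_eq_zero.1 h4).resolve_left h2
  exact ⟨s, by rw [h1, h5, add_zero]⟩

/-- The image of `Q₁`. -/
theorem mk4_mem {s s' T T' : E} (h1 : σ s = s') (h2 : T = algebraMap L E (q : L) * σ T') :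
    ∃ y : Qt (up L a) (q * up L b), psiL α q y = mk4 (up E a) (up E b) α s s' T T' := by
  have h0 := al_ne (a := up E a) H.α2
  have h2' : (2 : E) ≠ 0 := NeZero.ne _
  obtain ⟨u, hu⟩ := exists_L H (e := (s + s') / 2) (by
    rw [map_div₀, map_add, h1, ← h1, H.σ2, map_ofNat, add_comm])
  obtain ⟨v, hv⟩ := exists_L H (e := (s - s') / (2 * α)) (by
    rw [map_div₀, map_sub, ← h1, H.σ2, map_mul, map_ofNat, H.σα, mul_neg, div_neg, ← neg_div,
      neg_sub])
  obtain ⟨w, hw⟩ := exists_L H (e := (σ T' + T') / 2) (by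
    rw [map_div₀, map_add, H.σ2, map_ofNat, add_comm])
  obtain ⟨z, hz⟩ := exists_L H (e := (σ T' - T') / (2 * α)) (by
    rw [map_div₀, map_sub, H.σ2, map_mul, map_ofNat, H.σα, mul_neg, div_neg, ← neg_div,
      neg_sub])
  refine ⟨⟨u, v, w, z⟩, ?_⟩
  rw [psiL_eq H]
  simp only [hu, hv, hw, hz]
  rw [h2]
  congr 1
  all_goals
    field_simp
    try ring

theorem exists_psiL (x : Qt (up E a) (up E b))
    (hx : mq a b α (algebraMap L E q) * qmap σ x = x * mq a b α (algebraMap L E q)) :
    ∃ y : Qt (up L a) (q * up L b), psiL α q y = x := by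
  have h := H.hj
  rw [mk4_surj h.al x] at hx ⊢
  generalize x.re + x.imI * α = s at *
  generalize x.re - x.imI * α = s' at *
  generalize x.imJ + x.imK * α = T at *
  generalize x.imJ - x.imK * α = T' at *
  rw [qmap_mk4' h.sa, mq_eq, mk4_mul h.al, mk4_mul h.al] at hx
  obtain ⟨e1, e2, e3, e4⟩ := mk4_inj h.al hx
  refine mk4_mem H ?_ ?_
  · linear_combination e2
  · linear_combination -e3

theorem psiL_comm (x : Qt (up L a) (q * up L b)) :
    mq a b α (algebraMap L E q) * qmap σ (psiL α q x) = psiL α q x *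
      mq a b α (algebraMap L E q) := by
  have h := H.hj
  rw [psiL_eq H, qmap_mk4' h.sa, mq_eq, mk4_mul h.al, mk4_mul h.al]
  simp only [map_add, map_sub, map_mul, H.σL, h.sa]
  congr 1
  all_goals ring

end model

end Vale.Agent.P011.D4T
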