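import Vale.Agent.P011.D4.Maps

/-!
The splitting of the quaternion algebra `(a, b)` over a field which contains a square root `α`
of `a`.
-/

open Vale.Agent.P011.MPQ Vale.Agent.P011.D4 Vale.Agent.P011.D4.Oct

namespace Vale.Agent.P011.D4T

section mk4

variable {E : Type} [Field E] [NeZero (2 : E)] {a b : Eˣ} {α : E}

/-- The quaternion with the given coordinates in the splitting. -/
def mk4 (a b : Eˣ) (α s s' t t' : E) : Qt a b :=
  ⟨(s + s') / 2, (s - s') / (2 * α), (t + t') / 2, (t - t') / (2 * α)⟩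

omit [NeZero (2 : E)] in
theorem al_ne (hα : α * α = (a : E)) : α ≠ 0 := by
  rintro rfl
  exact a.ne_zero (by rw [← hα, mul_zero])

theorem mk4_mul (hα : α * α = (a : E)) (s s' t t' u u' v v' : E) :
    mk4 a b α s s' t t' * mk4 a b α u u' v v' =
      mk4 a b α (s * u + b * (t * v')) (s' * u' + b * (t' * v)) (s * v + t * u')
        (s' * v' + t' * u) := by
  have h0 := al_ne hα
  have h2 : (2 : E) ≠ 0 := NeZero.ne _
  ext
  · simp only [mk4, QuaternionAlgebra.re_mul, ← hα]
    field_simp
    ring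
  · simp only [mk4, QuaternionAlgebra.imI_mul]
    field_simp
    ring
  · simp only [mk4, QuaternionAlgebra.imJ_mul, ← hα]
    field_simp
    ring
  · simp only [mk4, QuaternionAlgebra.imK_mul]
    field_simp
    ring

omit [NeZero (2 : E)] in
theorem star_mk4 (s s' t t' : E) : star (mk4 a b α s s' t t') = mk4 a b α s' s (-t) (-t') := by
  ext <;> simp [mk4] <;> ring

theorem mk4_surj (hα : α * α = (a : E)) (x : Qt a b) :
    x = mk4 a b α (x.re + x.imI * α) (x.re - x.imI * α) (x.imJ + x.imK * α)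
      (x.imJ - x.imK * α) := by
  have h0 := al_ne hα
  have h2 : (2 : E) ≠ 0 := NeZero.ne _
  ext
  · simp only [mk4]; field_simp; ring
  · simp only [mk4]; field_simp; ring
  · simp only [mk4]; field_simp; ring
  · simp only [mk4]; field_simp; ring

theorem mk4_inj (hα : α * α = (a : E)) {s s' t t' u u' v v' : E}
    (h : mk4 a b α s s' t t' = mk4 a b α u u' v v') : s = u ∧ s' = u' ∧ t = v ∧ t' = v' := by
  have h0 := al_ne hα
  have h2 : (2 : E) ≠ 0 := NeZero.ne _
  have e1 := congrArg QuaternionAlgebra.re h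
  have e2 := congrArg QuaternionAlgebra.imI h
  have e3 := congrArg QuaternionAlgebra.imJ h
  have e4 := congrArg QuaternionAlgebra.imK h
  simp only [mk4] at e1 e2 e3 e4
  field_simp at e1 e2 e3 e4
  refine ⟨?_, ?_, ?_, ?_⟩
  · apply mul_left_cancel₀ h2; linear_combination e1 + e2
  · apply mul_left_cancel₀ h2; linear_combination e1 - e2
  · apply mul_left_cancel₀ h2; linear_combination e3 + e4
  · apply mul_left_cancel₀ h2; linear_combination e3 - e4

theorem nrd_mk4 (hα : α * α = (a : E)) (s s' t t' : E) :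
    nrd (mk4 a b α s s' t t') = s * s' - b * (t * t') := by
  have h0 := al_ne hα
  have h2 : (2 : E) ≠ 0 := NeZero.ne _
  simp only [nrd, mk4, ← hα]
  field_simp
  ring

omit [NeZero (2 : E)] in
theorem smul_mk4 (r s s' t t' : E) :
    r • mk4 a b α s s' t t' = mk4 a b α (r * s) (r * s') (r * t) (r * t') := by
  ext <;> simp [mk4] <;> ring

omit [NeZero (2 : E)] in
theorem add_mk4 (s s' t t' u u' v v' : E) :
    mk4 a b α s s' t t' + mk4 a b α u u' v v' =
      mk4 a b α (s + u) (s' + u') (t + v) (t' + v') := by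
  ext <;> simp [mk4] <;> ring

theorem mk4_one : mk4 a b α 1 1 0 0 = 1 := by
  have h2 : (2 : E) ≠ 0 := NeZero.ne _
  ext
  · simp [mk4]
  · simp [mk4]
  · simp [mk4]
  · simp [mk4]

omit [NeZero (2 : E)] in
theorem mk4_zero : mk4 a b α 0 0 0 0 = 0 := by
  ext <;> simp [mk4]

end mk4

section nrd

variable {F : Type} [Field F] {a b : Fˣ}

theorem q_mul_star (x : Qt a b) : x * star x = nrd x • (1 : Qt a b) := by
  ext <;> simp [nrd] <;> ring

theorem q_star_mul (x : Qt a b) : star x * x = nrd x • (1 : Qt a b) := by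
  ext <;> simp [nrd] <;> ring

theorem nrd_mul_q (x y : Qt a b) : nrd (x * y) = nrd x * nrd y := by
  simp [nrd]
  ring

theorem nrd_star_q (x : Qt a b) : nrd (star x) = nrd x := by
  simp [nrd]

theorem nrd_smul_q (t : F) (x : Qt a b) : nrd (t • x) = t ^ 2 * nrd x := by
  simp [nrd]
  ring

end nrd

end Vale.Agent.P011.D4T
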