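import Vale.Agent.P011.D4T.Defs
import Vale.Agent.P011.D4T.H657.Mk4

/-!
The semilinear map `J` of the cyclic composition with non trivial Tits class: its square, its
compatibility with the product.
-/

open Vale.Agent.P011.MPQ Vale.Agent.P011.D4 Vale.Agent.P011.D4.Oct Vale.Agent.P011.D4.H24

namespace Vale.Agent.P011.D4T

section jq

variable {k E : Type} [Field k] [Field E] [Algebra k E] {a b c : kˣ} {ρ σ : E ≃ₐ[k] E} {α : E}

/-- The semilinear map `J` attached to `q` and to its conjugate `q'`. -/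
def Jq {a b c : kˣ} (σ : E ≃ₐ[k] E) (α q q' : E) (x : OctL E a b c) : OctL E a b c :=
  ⟨mq a b α q * qmap σ x.fst * mq a b α (q * q'),
    qmap σ x.snd * (mq a b α q * star (mq a b α (q * q')))⟩

theorem mq_eq (t : E) : (mq a b α t) = mk4 (up E a) (up E b) α t 1 0 0 := by
  ext
  · rfl
  · rfl
  · change (0 : E) = (0 + 0) / 2
    simp
  · change (0 : E) = (0 - 0) / (2 * α)
    simp

theorem star_mq (t : E) :
    star (mq a b α t) = mk4 (up E a) (up E b) α 1 t 0 0 := by
  rw [mq_eq, star_mk4, neg_zero]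

theorem qmap_mk4 (hρα : ρ α = α) (s s' t t' : E) :
    qmap ρ (mk4 (up E a) (up E b) α s s' t t') =
      mk4 (up E a) (up E b) α (ρ s) (ρ s') (ρ t) (ρ t') := by
  ext
  · change ρ ((s + s') / 2) = (ρ s + ρ s') / 2
    simp [map_ofNat]
  · change ρ ((s - s') / (2 * α)) = (ρ s - ρ s') / (2 * α)
    simp [hρα, map_ofNat]
  · change ρ ((t + t') / 2) = (ρ t + ρ t') / 2
    simp [map_ofNat]
  · change ρ ((t - t') / (2 * α)) = (ρ t - ρ t') / (2 * α)
    simp [hρα, map_ofNat]

theorem qmap_mk4' (hσα : σ α = -α) (s s' t t' : E) :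
    qmap σ (mk4 (up E a) (up E b) α s s' t t') =
      mk4 (up E a) (up E b) α (σ s') (σ s) (σ t') (σ t) := by
  ext
  · change σ ((s + s') / 2) = (σ s' + σ s) / 2
    simp [add_comm, map_ofNat]
  · simp only [imI_qmap, mk4, map_div₀, map_sub, map_mul, hσα, mul_neg, div_neg, map_ofNat]
    rw [← neg_div, neg_sub]
  · change σ ((t + t') / 2) = (σ t' + σ t) / 2
    simp [add_comm, map_ofNat]
  · simp only [imK_qmap, mk4, map_div₀, map_sub, map_mul, hσα, mul_neg, div_neg, map_ofNat]
    rw [← neg_div, neg_sub]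

theorem qmap_mq (hρα : ρ α = α) (t : E) :
    qmap ρ (mq a b α t) = mq a b α (ρ t) := by
  rw [mq_eq, qmap_mk4 hρα, mq_eq, map_one, map_zero]

theorem qmap_mq' (hσα : σ α = -α) (t : E) :
    qmap σ (mq a b α t) = star (mq a b α (σ t)) := by
  rw [mq_eq, qmap_mk4' hσα, star_mq, map_one, map_zero]

variable [NeZero (2 : E)]

theorem diag_mul (hα : α * α = algebraMap k E a) (s s' u u' : E) :
    mk4 (up E a) (up E b) α s s' 0 0 * mk4 (up E a) (up E b) α u u' 0 0 =
      mk4 (up E a) (up E b) α (s * u) (s' * u') 0 0 := by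
  rw [mk4_mul hα]
  simp

theorem diag_one (s : E) : mk4 (up E a) (up E b) α s s 0 0 = s • 1 := by
  have h := smul_mk4 (a := up E a) (b := up E b) (α := α) s 1 1 0 0
  rw [mul_one, mul_zero, mk4_one] at h
  exact h.symm

theorem mq_mul (hα : α * α = algebraMap k E a) (s t : E) :
    mq a b α s * mq a b α t = mq a b α (s * t) := by
  rw [mq_eq, mq_eq, mq_eq, diag_mul hα, mul_one]

theorem mq_star (hα : α * α = algebraMap k E a) (s : E) :
    mq a b α s * star (mq a b α s) = s • 1 := by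
  rw [star_mq, mq_eq, diag_mul hα, mul_one, one_mul, diag_one]

theorem star_mq_mul (hα : α * α = algebraMap k E a) (s : E) :
    star (mq a b α s) * mq a b α s = s • 1 := by
  rw [star_mq, mq_eq, diag_mul hα, mul_one, one_mul, diag_one]

theorem nrd_mq (hα : α * α = algebraMap k E a) (s : E) :
    nrd (mq a b α s) = s := by
  rw [mq_eq, nrd_mk4 hα, mul_one, mul_zero, mul_zero, sub_zero]

/-- The hypotheses on the field and on `q`. -/
structure HJ (a : kˣ) (ρ σ : E ≃ₐ[k] E) (α q q' q'' : E) : Prop where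
  al : α * α = algebraMap k E a
  ra : ρ α = α
  sa : σ α = -α
  r0 : ρ q = q'
  r1 : ρ q' = q''
  r2 : ρ q'' = q
  s0 : σ q = q
  N : q * q' * q'' = 1
  rs : ∀ x, ρ (σ x) = σ (ρ x)
  r3 : ∀ x, ρ (ρ (ρ x)) = x
  s2 : ∀ x, σ (σ x) = x

namespace HJ

variable {q q' q'' : E} (h : HJ a ρ σ α q q' q'')
include h

omit [NeZero (2 : E)]

theorem s1 : σ q' = q' := by rw [← h.r0, ← h.rs, h.s0]

theorem s2' : σ q'' = q'' := by rw [← h.r1, ← h.rs, h.s1]

theorem N1 : q' * q'' * q = 1 := by rw [← h.N]; ring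

theorem N2 : q'' * q * q' = 1 := by rw [← h.N]; ring

theorem q_ne : q ≠ 0 := by
  rintro rfl
  have := h.N
  simp at this

theorem q1_ne : q' ≠ 0 := by
  rintro rfl
  have := h.N
  simp at this

theorem q2_ne : q'' ≠ 0 := by
  rintro rfl
  have := h.N
  simp at this

theorem A : qmap ρ (star (mq a b α (q * q'))) = (q' * q'') • mq a b α q := by
  rw [qmap_star, qmap_mq h.ra, map_mul, h.r0, h.r1, star_mq, mq_eq, smul_mk4, h.N1, mul_one,
    mul_zero]

theorem B : qmap ρ (qmap ρ (star (mq a b α q))) = q'' • mq a b α (q * q') := by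
  rw [qmap_star, qmap_star, qmap_mq h.ra, qmap_mq h.ra, h.r0, h.r1, star_mq, mq_eq, smul_mk4,
    ← mul_assoc, h.N2, mul_one, mul_zero]

theorem C [NeZero (2 : E)] : qmap ρ (star (mq a b α q)) *
    qmap ρ (qmap ρ (star (mq a b α (q * q')))) = 1 := by
  rw [qmap_star, qmap_star, qmap_star, qmap_mq h.ra, qmap_mq h.ra, qmap_mq h.ra, map_mul, h.r0,
    h.r1, map_mul, h.r2, h.r1, star_mq, star_mq, diag_mul h.al, ← mul_assoc, h.N1, mul_one,
    mk4_one]

theorem m0 [NeZero (2 : E)] : mq a b α q * star (mq a b α (q * q')) =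
    mk4 (up E a) (up E b) α q (q * q') 0 0 := by
  rw [star_mq, mq_eq, diag_mul h.al, mul_one, one_mul]

theorem D [NeZero (2 : E)] : star (qmap ρ (qmap ρ (mq a b α q *
    star (mq a b α (q * q'))))) = q'' • mq a b α q := by
  rw [h.m0, qmap_mk4 h.ra, qmap_mk4 h.ra, star_mk4, mq_eq, smul_mk4, map_mul, map_mul, h.r0,
    h.r1, h.r2]
  simp

theorem E' [NeZero (2 : E)] : qmap ρ (mq a b α q *
    star (mq a b α (q * q'))) = (q' * q'') • mq a b α (q * q') := by
  have e : q' * q'' * (q * q') = q' := by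
    rw [← mul_assoc, h.N1, one_mul]
  rw [h.m0, qmap_mk4 h.ra, mq_eq, smul_mk4, map_mul, h.r0, h.r1, e]
  simp

theorem F [NeZero (2 : E)] : qmap ρ (qmap ρ (mq a b α q *
    star (mq a b α (q * q')))) * qmap ρ (star (mq a b α (q * q'))) = q'' • 1 := by
  have e : q'' * q * (q' * q'') = q'' := by
    rw [← mul_assoc, h.N2, one_mul]
  rw [h.m0, qmap_mk4 h.ra, qmap_mk4 h.ra, qmap_star, qmap_mq h.ra, star_mq, map_mul, map_mul,
    h.r0, h.r1, h.r2, map_zero, map_zero, diag_mul h.al, mul_one, e, diag_one]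

theorem G [NeZero (2 : E)] : qmap ρ (mq a b α q *
    star (mq a b α (q * q'))) * qmap ρ (qmap ρ (mq a b α q)) = (q' * q'') • 1 := by
  rw [h.m0, qmap_mk4 h.ra, qmap_mq h.ra, qmap_mq h.ra, mq_eq, map_mul, h.r0, h.r1, map_zero,
    diag_mul h.al, mul_one, diag_one]

theorem H [NeZero (2 : E)] : (q * q * q' * q'') • qmap ρ (star (mq a b α q)) =
    mq a b α q * star (mq a b α (q * q')) := by
  have e : q * q * q' * q'' = q := by
    rw [mul_assoc q q q', mul_assoc, h.N, mul_one]
  rw [h.m0, qmap_star, qmap_mq h.ra, h.r0, star_mq, smul_mk4, e]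
  simp

theorem I [NeZero (2 : E)] : (q * q * q' * (q' * q'')) •
    qmap ρ (qmap ρ (mq a b α (q * q'))) =
    mq a b α q * star (mq a b α (q * q')) := by
  have e : q * q * q' * (q' * q'') = q * q' := by
    have := h.N
    linear_combination (q * q') * this
  have e' : q * q' * (q'' * q) = q := by
    have := h.N
    linear_combination q * this
  rw [h.m0, qmap_mq h.ra, qmap_mq h.ra, map_mul, map_mul, h.r0, h.r1, h.r2, e, mq_eq, smul_mk4,
    e']
  simp

theorem K [NeZero (2 : E)] : q * q * q' * (q' * q'' * q'') = 1 := by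
  have := h.N
  linear_combination (q * q' * q'' + 1) * this

end HJ

omit [NeZero (2 : E)] in
theorem fst_Jq (q q' : E) (x : OctL E a b c) : (Jq σ α q q' x).fst =
    mq a b α q * qmap σ x.fst * mq a b α (q * q') := rfl

omit [NeZero (2 : E)] in
theorem snd_Jq (q q' : E) (x : OctL E a b c) : (Jq σ α q q' x).snd =
    qmap σ x.snd * (mq a b α q * star (mq a b α (q * q'))) := rfl

omit [NeZero (2 : E)] in
theorem Jq_add (q q' : E) (x y : OctL E a b c) :
    Jq σ α q q' (x + y) = Jq σ α q q' x + Jq σ α q q' y := by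
  ext1
  · simp only [fst_Jq, fst_add, qmap_add, mul_add, add_mul]
  · simp only [snd_Jq, snd_add, qmap_add, add_mul]

omit [NeZero (2 : E)] in
theorem Jq_smul (q q' t : E) (x : OctL E a b c) :
    Jq σ α q q' (t • x) = σ t • Jq σ α q q' x := by
  ext1
  · simp only [fst_Jq, fst_smul, qmap_smul, mul_smul_comm, smul_mul_assoc]
  · simp only [snd_Jq, snd_smul, qmap_smul, smul_mul_assoc]

namespace HJ

variable {q q' q'' : E} (h : HJ a ρ σ α q q' q'')
include h

omit [NeZero (2 : E)] in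
theorem qcomm (x : Qt (up E a) (up E b)) : qmap σ (qmap ρ x) = qmap ρ (qmap σ x) := by
  ext <;> simp [h.rs]

omit [NeZero (2 : E)] in
theorem qinv (x : Qt (up E a) (up E b)) : qmap σ (qmap σ x) = x := by
  ext <;> simp [h.s2]

omit [NeZero (2 : E)] in
theorem qcube (x : Qt (up E a) (up E b)) : qmap ρ (qmap ρ (qmap ρ x)) = x := by
  ext <;> simp [h.r3]

/-- `J` and the product. -/
theorem Jq_tri (x y : OctL E a b c) : Jq σ α q q' (tri ρ x y) =
    (q * q * q') • tri ρ (Jq σ α q q' x) (Jq σ α q q' y) := by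
  have t1 : qmap ρ (star (mq a b α q * qmap σ x.fst * mq a b α (q * q'))) =
      (q' * q'') • (mq a b α q * (qmap ρ (star (qmap σ x.fst)) * qmap ρ (star (mq a b α q)))) := by
    rw [star_mul, star_mul, qmap_mul, qmap_mul, h.A, smul_mul_assoc]
  have t2 : qmap ρ (qmap ρ (star (mq a b α q * qmap σ y.fst * mq a b α (q * q')))) =
      q'' • (qmap ρ (qmap ρ (star (mq a b α (q * q')))) *
        (qmap ρ (qmap ρ (star (qmap σ y.fst))) * mq a b α (q * q'))) := by
    rw [star_mul, star_mul, qmap_mul, qmap_mul, qmap_mul, qmap_mul, h.B, mul_smul_comm,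
      mul_smul_comm]
  have t3 : star (qmap ρ (qmap ρ (qmap σ y.snd * (mq a b α q * star (mq a b α (q * q')))))) =
      q'' • (mq a b α q * star (qmap ρ (qmap ρ (qmap σ y.snd)))) := by
    rw [qmap_mul, qmap_mul, star_mul, h.D, smul_mul_assoc]
  have t4 : qmap ρ (qmap σ x.snd * (mq a b α q * star (mq a b α (q * q')))) =
      (q' * q'') • (qmap ρ (qmap σ x.snd) * mq a b α (q * q')) := by
    rw [qmap_mul, h.E', mul_smul_comm]
  have hUV : ∀ w, qmap ρ (star (mq a b α q)) *
      (qmap ρ (qmap ρ (star (mq a b α (q * q')))) * w) = w := fun w => by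
    rw [← mul_assoc, h.C, one_mul]
  have hc : σ ((up E c : Eˣ) : E) = ((up E c : Eˣ) : E) := σ.commutes _
  apply Oct.ext
  · rw [fst_Jq, fst_tri, fst_smul, fst_tri, fst_Jq, fst_Jq, snd_Jq, snd_Jq, t1, t2, t3, t4]
    simp only [qmap_add, qmap_mul, qmap_smul, h.qcomm, qmap_star]
    simp only [smul_mul_assoc, mul_smul_comm, smul_smul, smul_add, mul_add, add_mul, mul_assoc]
    have hUV' : ∀ w, star (qmap ρ (mq a b α q)) *
        (star (qmap ρ (qmap ρ (mq a b α (q * q')))) * w) = w := fun w => by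
      have := hUV w
      rwa [qmap_star, qmap_star, qmap_star] at this
    rw [hUV']
    have e1' : q * (q * (q' * (q'' * (q' * q'')))) = 1 := by rw [← h.K]; ring
    have e2' : ∀ t : E, q * (q * (q' * (t * (q' * (q'' * q''))))) = t := fun t => by
      have := h.K
      linear_combination t * this
    congr 1
    · rw [e1', one_smul]
    · rw [hc, e2']
  · rw [snd_Jq, snd_tri, snd_smul, snd_tri, fst_Jq, fst_Jq, snd_Jq, snd_Jq]
    have u1 : qmap ρ (qmap ρ (qmap σ y.snd * (mq a b α q * star (mq a b α (q * q'))))) *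
        qmap ρ (star (mq a b α q * qmap σ x.fst * mq a b α (q * q'))) =
        q'' • (qmap ρ (qmap ρ (qmap σ y.snd)) * (qmap ρ (star (qmap σ x.fst)) *
          qmap ρ (star (mq a b α q)))) := by
      have hF := h.F (b := b)
      rw [star_mul, star_mul, qmap_mul, qmap_mul, qmap_mul ρ (star (mq a b α (q * q'))),
        qmap_mul ρ (star (qmap σ x.fst)), mul_assoc, ← mul_assoc (qmap ρ (qmap ρ (mq a b α q *
          star (mq a b α (q * q'))))), hF, smul_mul_assoc, one_mul, mul_smul_comm]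
    have u2 : qmap ρ (qmap σ x.snd * (mq a b α q * star (mq a b α (q * q')))) *
        qmap ρ (qmap ρ (mq a b α q * qmap σ y.fst * mq a b α (q * q'))) =
        (q' * q'') • (qmap ρ (qmap σ x.snd) * (qmap ρ (qmap ρ (qmap σ y.fst)) *
          qmap ρ (qmap ρ (mq a b α (q * q'))))) := by
      have hG := h.G (b := b)
      have s1 : qmap ρ (qmap ρ (mq a b α q * qmap σ y.fst * mq a b α (q * q'))) =
          qmap ρ (qmap ρ (mq a b α q)) * (qmap ρ (qmap ρ (qmap σ y.fst)) *
            qmap ρ (qmap ρ (mq a b α (q * q')))) := by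
        simp only [qmap_mul, mul_assoc]
      rw [s1, qmap_mul ρ (qmap σ x.snd), mul_assoc, ← mul_assoc (qmap ρ (mq a b α q *
          star (mq a b α (q * q')))), hG, smul_mul_assoc, one_mul, mul_smul_comm]
    have hH := h.H (b := b)
    have hI := h.I (b := b)
    rw [u1, u2, smul_neg, smul_add, smul_smul, smul_smul, ← mul_smul_comm, ← mul_smul_comm, hH,
      ← mul_smul_comm, ← mul_smul_comm, hI, qmap_neg, neg_mul, qmap_add, qmap_mul, qmap_mul,
      add_mul, h.qcomm, h.qcomm, h.qcomm, h.qcomm, h.qcomm, h.qcomm, mul_assoc, mul_assoc,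
      qmap_star σ]

end HJ

end jq

end Vale.Agent.P011.D4T
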