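import Vale.Agent.P011.D4T.H657.ZT
import Vale.Agent.P011.D4T.H691.Na

/-!
The central torus of the centralisers of the involutions of the standard plane.
-/

open Vale.Agent.P011.MPQ Vale.Agent.P011.D4 Vale.Agent.P011.D4.Oct Vale.Agent.P011.D4.H24
open Vale.Agent.P011.E6

set_option linter.unusedSectionVars false

namespace Vale.Agent.P011.D4T

section zs

variable {k E : Type} [Field k] [Field E] [Algebra k E] {a b c : kˣ} {α : E}

/-- The linear map which is a scalar on the four components given by `e₊` and `e₋`. -/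
def zs (α A B C D : E) (y : OctL E a b c) : OctL E a b c :=
  A • (ep α * (y * ep α)) + B • ((1 - ep α) * (y * (1 - ep α))) +
    C • (ep α * (y * (1 - ep α))) + D • ((1 - ep α) * (y * ep α))

variable [NeZero (2 : E)]

theorem ep_mk4 : (ep α : OctL E a b c) = ⟨mk4 (up E a) (up E b) α 1 0 0 0, 0⟩ := by
  apply Oct.ext
  · ext
    · change 1 / 2 = (1 + 0) / (2 : E)
      rw [add_zero]
    · change 1 / (2 * α) = (1 - 0) / (2 * α)
      rw [sub_zero]
    · change (0 : E) = (0 + 0) / 2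
      simp
    · change (0 : E) = (0 - 0) / (2 * α)
      simp
  · rfl

theorem em_mk4 : (1 - ep α : OctL E a b c) = ⟨mk4 (up E a) (up E b) α 0 1 0 0, 0⟩ := by
  rw [ep_mk4]
  apply Oct.ext
  · change (1 : Qt (up E a) (up E b)) - mk4 (up E a) (up E b) α 1 0 0 0 = _
    rw [← mk4_one (a := up E a) (b := up E b) (α := α), sub_eq_iff_eq_add, add_mk4]
    simp
  · change (0 : Qt (up E a) (up E b)) - 0 = 0
    rw [sub_zero]

theorem zs_mk4 (hα : α * α = algebraMap k E a) (A B C D s s' t t' u u' v v' : E) :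
    zs α A B C D (⟨mk4 (up E a) (up E b) α s s' t t', mk4 (up E a) (up E b) α u u' v v'⟩ :
      OctL E a b c) = ⟨mk4 (up E a) (up E b) α (A * s) (B * s') (C * t) (D * t'),
        mk4 (up E a) (up E b) α (C * u) (D * u') (D * v) (C * v')⟩ := by
  unfold zs
  rw [em_mk4, ep_mk4]
  apply Oct.ext
  · simp only [fst_add, fst_smul, fst_mul, snd_mul, star_zero, zero_mul, mul_zero, smul_zero,
      add_zero, zero_add, mk4_mul (a := up E a) (b := up E b) hα, smul_mk4, add_mk4, mul_one]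
    congr 1
    all_goals ring
  · simp only [snd_add, snd_smul, fst_mul, snd_mul, star_zero, zero_mul, mul_zero, smul_zero,
      add_zero, zero_add, star_mk4, mk4_mul (a := up E a) (b := up E b) hα, smul_mk4, add_mk4,
      mul_one]
    congr 1
    all_goals ring

/-- A linear map which is compatible with the product and fixes `e₊` commutes with `zs`. -/
theorem zs_comm {T : OctL E a b c →ₗ[E] OctL E a b c} (hm : ∀ x y, T (x * y) = T x * T y)
    (h1 : T 1 = 1) (he : T (ep α) = ep α) (A B C D : E) (y : OctL E a b c) :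
    zs α A B C D (T y) = T (zs α A B C D y) := by
  simp only [zs, map_add, map_smul, map_sub, hm, h1, he]

end zs

section tq

variable {k E : Type} [Field k] [Field E] [Algebra k E] [NeZero (2 : E)] {a b c b' c' : kˣ}
  {j l : Oct a b c} {α : E}

namespace TorQ

theorem t0_mul (x y : OctL E a b c) : t0 E a b c (x * y) = t0 E a b c x * t0 E a b c y := by
  apply Oct.ext
  · change x.fst * y.fst + _ • (star y.snd * x.snd) =
      x.fst * y.fst + _ • (star (-y.snd) * -x.snd)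
    rw [star_neg, neg_mul_neg]
  · change -(y.snd * x.fst + x.snd * star y.fst) = -y.snd * x.fst + -x.snd * star y.fst
    rw [neg_add, neg_mul, neg_mul]

theorem tQ_apply (h : Trip a b' c' gi j l) (x : OctL E a b c) :
    tQ E h x = tripO E h (t0 E a b' c' ((tripO E h).symm x)) := rfl

theorem tQ_mul (h : Trip a b' c' gi j l) (x y : OctL E a b c) :
    tQ E h (x * y) = tQ E h x * tQ E h y := by
  have hs : ∀ x y, (tripO E h).symm (x * y) = (tripO E h).symm x * (tripO E h).symm y := by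
    intro x y
    apply (tripO E h).injective
    rw [LinearEquiv.apply_symm_apply, tripO_mul, LinearEquiv.apply_symm_apply,
      LinearEquiv.apply_symm_apply]
  rw [tQ_apply, tQ_apply, tQ_apply, hs, t0_mul, tripO_mul]

theorem tripO_one (h : Trip a b' c' gi j l) : tripO E h 1 = 1 := by
  have h1 : ∀ y, tripO E h 1 * y = y := by
    intro y
    obtain ⟨x, rfl⟩ := (tripO E h).surjective y
    rw [← tripO_mul, one_mul]
  have := h1 1
  rwa [mul_one] at this

theorem tripO_gi (h : Trip a b' c' gi j l) :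
    tripO E h (gi : OctL E a b' c') = (gi : OctL E a b c) := by
  have h1 : emb gi j l (gi : Oct a b' c') = gi := by
    simp [emb, qemb, gi]
  rw [← oup_gi (a := a) (b := b') (c := c') (L := E), tripO_oup, h1, oup_gi]

theorem tQ_one (h : Trip a b' c' gi j l) : tQ E h 1 = 1 := by
  have h1 : (tripO E h).symm 1 = 1 := by
    rw [LinearEquiv.symm_apply_eq, tripO_one]
  rw [tQ_apply, h1]
  have h2 : t0 E a b' c' 1 = 1 := by
    apply Oct.ext
    · rfl
    · change -(0 : Qt (up E a) (up E b')) = 0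
      rw [neg_zero]
  rw [h2, tripO_one]

theorem tQ_ep (h : Trip a b' c' gi j l) : tQ E h (ep α) = ep α := by
  have e1 : ∀ {b c : kˣ}, (ep α : OctL E a b c) = (1 / 2 : E) • 1 + (1 / (2 * α)) • gi := by
    intro b c
    apply Oct.ext
    · ext
      · change 1 / 2 = 1 / 2 * (1 : E) + 1 / (2 * α) * 0
        ring
      · change 1 / (2 * α) = 1 / 2 * (0 : E) + 1 / (2 * α) * 1
        ring
      · change (0 : E) = 1 / 2 * (0 : E) + 1 / (2 * α) * 0
        ring
      · change (0 : E) = 1 / 2 * (0 : E) + 1 / (2 * α) * 0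
        ring
    · change (0 : Qt (up E a) (up E b)) = (1 / 2 : E) • 0 + (1 / (2 * α)) • 0
      rw [smul_zero, smul_zero, add_zero]
  have h2 : tripO E h (ep α) = ep α := by
    rw [e1, map_add, map_smul, map_smul, tripO_one, tripO_gi, ← e1]
  have h3 : (tripO E h).symm (ep α) = ep α := by
    rw [LinearEquiv.symm_apply_eq, h2]
  have h4 : t0 E a b' c' (ep α) = ep α := by
    apply Oct.ext
    · rfl
    · change -(0 : Qt (up E a) (up E b')) = 0
      rw [neg_zero]
  rw [tQ_apply, h3, h4, h2]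

end TorQ

end tq

section tor

variable {k L E : Type} [Field k] [Field L] [Field E] [Algebra k L] [Algebra k E] [Algebra L E]
  [IsScalarTower k L E] {ρ σ : E ≃ₐ[k] E} {ρL : L ≃ₐ[k] L} {α : E}
  {a b c : kˣ} {q : Lˣ} [NeZero (2 : E)] (H : Hy ρ σ ρL α a b c q)

include H

/-- The central torus. -/
theorem exists_tor (x : E) (hx : x ≠ 0) : ∃ (z : AT ρ σ α a b c q) (κ : Lˣ),
    IsKap ρ z.1 κ ∧ algebraMap L E (κ : L) = x * σ x ∧
      ∀ {b' c' : kˣ} {j l : Oct a b c} (h : Trip a b' c' gi j l), z ∈ stab ρ σ α q h := by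
  have h := H.hj
  obtain ⟨μ, hμ⟩ := exists_L H (e := x * σ x) (by rw [map_mul, H.σ2, mul_comm])
  have hσx : σ x ≠ 0 := fun h0 => hx ((map_eq_zero_iff σ σ.injective).1 h0)
  have hρx : ρ x ≠ 0 := fun h0 => hx ((map_eq_zero_iff ρ ρ.injective).1 h0)
  have hρρx : ρ (ρ x) ≠ 0 := fun h0 => hρx ((map_eq_zero_iff ρ ρ.injective).1 h0)
  have hρσ : ρ (σ x) ≠ 0 := fun h0 => hσx ((map_eq_zero_iff ρ ρ.injective).1 h0)
  have hρρσ : ρ (ρ (σ x)) ≠ 0 := fun h0 => hρσ ((map_eq_zero_iff ρ ρ.injective).1 h0)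
  have hμ0 : μ ≠ 0 := by
    rintro rfl
    rw [map_zero] at hμ
    exact mul_ne_zero hx hσx hμ.symm
  have c1 : σ (ρ x) = ρ (σ x) := H.comm _
  have c2 : σ (ρ (ρ x)) = ρ (ρ (σ x)) := by rw [H.comm, H.comm]
  have c3 : σ (ρ (σ x)) = ρ x := by rw [H.comm, H.σ2]
  have c4 : σ (ρ (ρ (σ x))) = ρ (ρ x) := by rw [H.comm, H.comm, H.σ2]
  -- `ξ = x₂ / (y₂ x₀ x₁)`
  set ξ : E := ρ (ρ x) / (ρ (ρ (σ x)) * (x * ρ x)) with hξ
  have hσξ : σ ξ = ρ (ρ (σ x)) / (ρ (ρ x) * (σ x * ρ (σ x))) := by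
    rw [hξ, map_div₀, map_mul, map_mul, c1, c2, c4]
  set X : Qt (up E a) (up E b) := mk4 (up E a) (up E b) α ξ (σ ξ) 0 0 with hXd
  have hnX : nrd X = 1 / (x * σ x * (ρ x * ρ (σ x))) := by
    rw [hXd, nrd_mk4 h.al, hσξ, hξ]
    field_simp
    ring
  have hX0 : nrd X ≠ 0 := by
    rw [hnX]
    exact one_div_ne_zero (mul_ne_zero (mul_ne_zero hx hσx) (mul_ne_zero hρx hρσ))
  have hn1 : ρ (nrd X) = 1 / (ρ x * ρ (σ x) * (ρ (ρ x) * ρ (ρ (σ x)))) := by
    rw [hnX]
    simp only [map_div₀, map_mul, map_one]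
  have hn2 : ρ (ρ (nrd X)) = 1 / (ρ (ρ x) * ρ (ρ (σ x)) * (x * σ x)) := by
    rw [hn1]
    simp only [map_div₀, map_mul, map_one, H.ρ3]
  have hσX : qmap σ X = X := by
    rw [hXd, qmap_mk4' h.sa, H.σ2, map_zero]
  have ht0 : (x * σ x)⁻¹ ≠ 0 := inv_ne_zero (mul_ne_zero hx hσx)
  have hρμ : ρL μ ≠ 0 := fun h0 => hμ0 ((map_eq_zero_iff ρL ρL.injective).1 h0)
  have hρρμ : ρL (ρL μ) ≠ 0 := fun h0 => hρμ ((map_eq_zero_iff ρL ρL.injective).1 h0)
  have h1n : nrd (1 : Qt (up E a) (up E b)) = 1 := nrd_one_q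
  have e1 : algebraMap L E (ρL μ) = ρ x * ρ (σ x) := by
    rw [← H.ρL', hμ, map_mul]
  have e2 : algebraMap L E (ρL (ρL μ)) = ρ (ρ x) * ρ (ρ (σ x)) := by
    rw [← H.ρL', e1, map_mul]
  obtain ⟨z0, hz1, hz2⟩ := zE_mem (c := c) H (X := X) (w := 1) (t := (x * σ x)⁻¹)
    (κ := Units.mk0 _ hρμ * Units.mk0 _ hρρμ)
    hX0 (by rw [h1n]; exact one_ne_zero) ht0 (qmap_one ρ) (qmap_one σ)
    (by rw [map_inv₀, map_mul, H.σ2, mul_comm])
    (by
      rw [h1n, hn1]
      simp only [map_inv₀, map_mul]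
      field_simp)
    (by
      rw [hn1, hnX]
      simp only [map_inv₀, map_mul]
      field_simp)
    (by
      rw [hn2, hn1]
      simp only [map_inv₀, map_mul]
      field_simp)
    (by
      rw [hσX, hXd, mq_eq, diag_mul h.al, diag_mul h.al, mul_comm, mul_comm (1 : E)])
    (by
      rw [Units.val_mul, Units.val_mk0, Units.val_mk0, map_mul, e1, e2, hn1]
      field_simp)
  let μu : Lˣ := Units.mk0 μ hμ0
  refine ⟨H.scal μu * z0, _, (isKap_kap (H.scal μu)).mul hz1, ?_, ?_⟩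
  · have h5 := kap_scal H μu
    rw [Units.val_mul, Units.val_mul, Units.val_mk0, Units.val_mk0, ← mul_assoc, ← hμ]
    congr 1
    exact h5.symm
  · intro b' c' j l h'
    change (H.scal μu * z0 : AT ρ σ α a b c q).1 * tQ E h' =
      tQ E h' * (H.scal μu * z0 : AT ρ σ α a b c q).1
    have key : ∀ y : OctL E a b c, z0.1 y = zs α (ξ * ρ (ρ (σ ξ))) (σ ξ * ρ (ρ ξ))
        (ξ * ρ (ρ ξ)) (σ ξ * ρ (ρ (σ ξ))) y := by
      intro y
      have d1 : (x * σ x)⁻¹ * ρ (σ ξ) = ξ * ρ (ρ ξ) := by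
        rw [hσξ, hξ]
        simp only [map_div₀, map_mul, H.ρ3]
        field_simp
      have d2 : (x * σ x)⁻¹ * ρ ξ = σ ξ * ρ (ρ (σ ξ)) := by
        rw [hσξ, hξ]
        simp only [map_div₀, map_mul, H.ρ3]
        field_simp
      rw [hz2]
      have hy : y = ⟨y.fst, y.snd⟩ := rfl
      rw [hy, mk4_surj h.al y.fst, mk4_surj h.al y.snd, zs_mk4 h.al]
      apply Oct.ext
      · rw [fst_zFun, hXd, qmap_mk4 h.ra, qmap_mk4 h.ra, star_mk4, mk4_mul h.al, mk4_mul h.al]
        simp only [map_zero, neg_zero, mul_zero, zero_mul, add_zero, zero_add]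
        congr 1
        all_goals ring
      · rw [snd_zFun, hXd, qmap_mk4 h.ra, star_mk4, one_mul, mk4_mul h.al, smul_mk4]
        simp only [map_zero, neg_zero, mul_zero, add_zero, zero_add]
        rw [← d1, ← d2]
        congr 1
        all_goals ring
    apply LinearEquiv.ext
    intro y
    change algebraMap L E (μu : L) • z0.1 (tQ E h' y) =
      tQ E h' (algebraMap L E (μu : L) • z0.1 y)
    rw [map_smul, key, key]
    congr 1
    exact zs_comm (T := (tQ E h').toLinearMap) (TorQ.tQ_mul h') (TorQ.tQ_one h') (TorQ.tQ_ep h')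
      _ _ _ _ y

end tor

end Vale.Agent.P011.D4T
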